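import Mathlib
import Vale.Agent.P154.Defs
import Vale.Agent.P154.Bdl.B6
import Vale.Agent.P154.Bdl.B10
import Vale.Agent.P154.Bdl.B11

namespace Vale.Agent.Results.P154.PottsFull

open Vale.Agent.P154

theorem result :
    -- q = 3, rooted d-ary trees, all admissible lambda
    (∀ d : ℕ, 2 ≤ d → ∀ lam : ℝ, -1 / 2 ≤ lam → lam ≤ 1 →
        (Reconstruction (regularOffspring d) 3 lam ↔ 1 < (d : ℝ) * lam ^ 2) ∧
        (Nonreconstruction (regularOffspring d) 3 lam ↔ (d : ℝ) * lam ^ 2 ≤ 1)) ∧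
    -- q = 3, Galton-Watson trees with Poisson(d) offspring, all admissible lambda
    (∀ d : ℝ, 0 < d → ∀ lam : ℝ, -1 / 2 ≤ lam → lam ≤ 1 →
        (Reconstruction (poissonOffspring d) 3 lam ↔ 1 < d * lam ^ 2) ∧
        (Nonreconstruction (poissonOffspring d) 3 lam ↔ d * lam ^ 2 ≤ 1)) ∧
    -- q = 4, rooted d-ary trees, lambda ≥ 0
    (∀ d : ℕ, 2 ≤ d → ∀ lam : ℝ, 0 ≤ lam → lam ≤ 1 →
        (Reconstruction (regularOffspring d) 4 lam ↔ 1 < (d : ℝ) * lam ^ 2) ∧
        (Nonreconstruction (regularOffspring d) 4 lam ↔ (d : ℝ) * lam ^ 2 ≤ 1)) ∧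
    -- q = 4, Galton-Watson trees with Poisson(d) offspring, lambda ≥ 0
    (∀ d : ℝ, 0 < d → ∀ lam : ℝ, 0 ≤ lam → lam ≤ 1 →
        (Reconstruction (poissonOffspring d) 4 lam ↔ 1 < d * lam ^ 2) ∧
        (Nonreconstruction (poissonOffspring d) 4 lam ↔ d * lam ^ 2 ≤ 1)) := by
  refine ⟨fun d hd lam h0 h1 => ?_, fun d hd lam h0 h1 => full_poisson hd h0 h1,
    fun d hd lam h0 h1 => ?_, fun d hd lam h0 h1 => ?_⟩
  · exact full_regular hd h0 h1 fun hneg hks => nonrec_regular_af h0 hneg hks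
  · have hl : -1 / (((4 : ℕ) : ℝ) - 1) ≤ lam := (neg_inv_le_zero (by norm_num)).trans h0
    have h := ferro_regular Q4.isCert4 (by norm_num) hd h0 h1
    have h2 := reconstruction_iff (q := 4) (by norm_num) hl h1 (regular_nonneg d)
      (regular_hasSum d)
    refine ⟨h, ?_⟩
    rw [← not_lt, ← h, h2, not_not]
  · have hl : -1 / (((4 : ℕ) : ℝ) - 1) ≤ lam := (neg_inv_le_zero (by norm_num)).trans h0
    have h := ferro_poisson Q4.isCert4 (by norm_num) hd h0 h1
    have h2 := reconstruction_iff (q := 4) (by norm_num) hl h1 (poisson_nonneg hd.le)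
      (poisson_hasSum d)
    refine ⟨h, ?_⟩
    rw [← not_lt, ← h, h2, not_not]

end Vale.Agent.Results.P154.PottsFull
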